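import Vale.Agent.P273.H778.T2Defs
import Vale.Agent.P273.H887.Pol

/-!
# P273, crew ASY0, T2 (A4): outside the active marks the recursion is trivial
-/

open Set Filter Topology Metric
open scoped ContDiff
open Vale.Agent.P273.H681 Vale.Agent.P273.H95 Vale.Agent.P273.H562 Vale.Agent.P273.H578
  Vale.Agent.P273.H973 Vale.Agent.P273.H803 Vale.Agent.P273.H732 Vale.Agent.P273.H778

noncomputable section

namespace Vale.Agent.P273.H655

variable {R : H95.Region} {m : ∀ k, Fin (R.n k + 1)} {S : L → Bool} {N₀ : ℝ} {p : Co R m}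

/-- the roots of the chart are those of helper738 -/
theorem rt6_eq (p : Co R m) : (posE R m p).1 = H738.rt6 R m p := by
  have h : (fun k : Fin 3 => (1 / 16 : ℂ) * Complex.exp
      ((-(p.2.2.1 k : ℂ) + (p.2.2.2.1 k : ℂ) * Complex.I) / 2)) =
      fun k => H738.hd (1 / 16) (H738.le3 R m) k p := by
    funext k
    unfold H738.hd
    rw [H738.le3_eq]
  have key : ∀ D : Fin 3 → ℂ, ∀ i : Fin 6, H828.th D i =
      H95.ctr (H738.kp i) + H738.sg6 i * D (H738.kp i) := by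
    intro D i
    fin_cases i <;> simp [H828.th, H95.ctr, H738.kp, H738.sg6] <;> ring
  funext i
  show rootsL p.2.2.1 p.2.2.2.1 i = H738.rts (1 / 16) H95.ctr (H738.le3 R m) H738.kp H738.sg6 p i
  unfold H738.rts rootsL
  rw [h]
  exact key _ i

theorem adm738 (hp : Adm R m S N₀ p) (hN : 0 ≤ N₀) : H738.Adm m p where
  inr := hp.1
  ul k := (W R m).ul_nonneg hp.1 k (hN.trans (hp.2.1 k))

theorem norm_root_le (hp : Adm R m S N₀ p) (hN : 0 ≤ N₀) (i : Fin 6) :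
    ‖(posE R m p).1 i‖ ≤ 2 * ((H738.kp i : ℕ) : ℝ) + 25 / 16 := by
  have hA := adm738 hp hN
  rw [rt6_eq]
  unfold H738.rt6 H738.rts
  have h1 := hA.norm_hd_le (H738.kp i)
  have h2 : ‖H738.sg6 i * H738.hd (1 / 16) (H738.le3 R m) (H738.kp i) p‖ ≤ 1 / 16 := by
    rw [norm_mul, H738.norm_sig (H738.sg6_sq i), one_mul]
    exact h1
  have h3 : ‖H95.ctr (H738.kp i)‖ = 2 * ((H738.kp i : ℕ) : ℝ) + 3 / 2 := by
    have e : H95.ctr (H738.kp i) = ((2 * ((H738.kp i : ℕ) : ℝ) + 3 / 2 : ℝ) : ℂ) := by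
      unfold H95.ctr
      push_cast
      ring
    rw [e, Complex.norm_real, Real.norm_eq_abs, abs_of_nonneg (by positivity)]
  refine (norm_add_le _ _).trans ?_
  linarith

theorem Rr_le (hp : Adm R m S N₀ p) (hN : 0 ≤ N₀) : H604.Rr (posE R m p).1 ≤ 80 := by
  have h1 := H604.Rr_sq (posE R m p).1
  have h2 : ∑ i, ‖(posE R m p).1 i‖ ^ 2 ≤
      ∑ i : Fin 6, (2 * ((H738.kp i : ℕ) : ℝ) + 25 / 16) ^ 2 :=
    Finset.sum_le_sum fun i _ => pow_le_pow_left₀ (norm_nonneg _) (norm_root_le hp hN i) 2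
  have h3 : ∑ i : Fin 6, (2 * ((H738.kp i : ℕ) : ℝ) + 25 / 16) ^ 2 ≤ 94 := by
    simp only [Fin.sum_univ_six, H738.kp]
    norm_num
  have h4 := H604.Rr_pos (posE R m p).1
  by_contra h5
  nlinarith

/-- the sum of the inverse squares of the distances of a root -/
theorem hh_aux {b : Fin 6 → ℂ} {i i₀ : Fin 6} (hi : i₀ ≠ i) {δ : ℝ} (hpos : 0 < δ)
    (hle : δ ≤ 1 / 16) (h0 : ‖b i₀ - b i‖ = 2 * δ)
    (hb : ∀ j, j ≠ i → j ≠ i₀ → 1 ≤ ‖b j - b i‖) : (3 / 2 * δ) ^ 2 ≤ H214.hh b i := by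
  have hmem : i₀ ∈ Finset.univ.erase i := Finset.mem_erase.2 ⟨hi, Finset.mem_univ _⟩
  have e0 := Finset.add_sum_erase (Finset.univ.erase i) (fun j => (‖b j - b i‖ ^ 2)⁻¹) hmem
  simp only [h0] at e0
  have h1 : (∑ j ∈ (Finset.univ.erase i).erase i₀, (‖b j - b i‖ ^ 2)⁻¹) ≤
      ∑ _j ∈ (Finset.univ.erase i).erase i₀, (1 : ℝ) := by
    refine Finset.sum_le_sum fun j hj => ?_
    rw [Finset.mem_erase, Finset.mem_erase] at hj
    exact inv_le_one_of_one_le₀ (one_le_pow₀ (hb j hj.2.1 hj.1))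
  have h1' : 0 ≤ (∑ j ∈ (Finset.univ.erase i).erase i₀, (‖b j - b i‖ ^ 2)⁻¹) :=
    Finset.sum_nonneg fun j _ => inv_nonneg.2 (sq_nonneg _)
  have h3 : (∑ _j ∈ (Finset.univ.erase i).erase i₀, (1 : ℝ)) = 4 := by
    rw [Finset.sum_const, nsmul_eq_mul, mul_one]
    have h4 : ((Finset.univ.erase i).erase i₀).card = 4 := by
      rw [Finset.card_erase_of_mem hmem, Finset.card_erase_of_mem (Finset.mem_univ _),
        Finset.card_univ, Fintype.card_fin]
    rw [h4]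
    norm_num
  have h5 : 4 ≤ (7 / 36) * (δ ^ 2)⁻¹ := by
    have h6 : δ ^ 2 ≤ (1 / 16) ^ 2 := by gcongr
    have h7 : ((1 / 16 : ℝ) ^ 2)⁻¹ ≤ (δ ^ 2)⁻¹ := inv_anti₀ (by positivity) h6
    norm_num at h7 ⊢
    linarith
  have h8 : ((2 * δ) ^ 2)⁻¹ = 1 / 4 * (δ ^ 2)⁻¹ := by
    field_simp
    norm_num
  have h9 : ((3 / 2 * δ) ^ 2)⁻¹ = 4 / 9 * (δ ^ 2)⁻¹ := by
    field_simp
    norm_num
  have hδ2 : 0 < (δ ^ 2)⁻¹ := inv_pos.2 (pow_pos hpos 2)
  have hsum : (∑ j ∈ Finset.univ.erase i, (‖b j - b i‖ ^ 2)⁻¹) ≤ ((3 / 2 * δ) ^ 2)⁻¹ := by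
    rw [← e0, h9]
    linarith
  have hpos' : 0 < ∑ j ∈ Finset.univ.erase i, (‖b j - b i‖ ^ 2)⁻¹ := by
    rw [← e0]
    linarith
  have h10 := inv_anti₀ hpos' hsum
  rw [inv_inv] at h10
  exact h10

/-- the scale of a root at least `(9/4) |d|^2` -/
theorem hh_ge (hp : Adm R m S N₀ p) (hN : 0 ≤ N₀) (i : Fin 6) :
    (3 / 2 * ‖H738.hd (1 / 16) (H738.le3 R m) (H738.kp i) p‖) ^ 2 ≤
      H214.hh (posE R m p).1 i := by
  have A := adm738 hp hN
  have hpos : 0 < ‖H738.hd (1 / 16) (H738.le3 R m) (H738.kp i) p‖ :=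
    norm_pos_iff.2 (mul_ne_zero (by norm_num) (Complex.exp_ne_zero _))
  have hle := A.norm_hd_le (H738.kp i)
  rw [rt6_eq]
  have hb : ∀ j, H738.kp j ≠ H738.kp i → 1 ≤ ‖H738.rt6 R m p j - H738.rt6 R m p i‖ := by
    intro j hj
    have h1 := H738.ctr_dist (k := H738.kp j) (l := H738.kp i) (Ne.symm hj)
    have e : H95.ctr (H738.kp j) - H95.ctr (H738.kp i) = (H738.rt6 R m p j - H738.rt6 R m p i) -
        H738.sg6 j * H738.hd (1 / 16) (H738.le3 R m) (H738.kp j) p +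
          H738.sg6 i * H738.hd (1 / 16) (H738.le3 R m) (H738.kp i) p := by
      unfold H738.rt6 H738.rts; ring
    rw [e] at h1
    have h2 := norm_add_le ((H738.rt6 R m p j - H738.rt6 R m p i) -
        H738.sg6 j * H738.hd (1 / 16) (H738.le3 R m) (H738.kp j) p)
          (H738.sg6 i * H738.hd (1 / 16) (H738.le3 R m) (H738.kp i) p)
    have h3 := norm_sub_le (H738.rt6 R m p j - H738.rt6 R m p i)
      (H738.sg6 j * H738.hd (1 / 16) (H738.le3 R m) (H738.kp j) p)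
    have h4 : ‖H738.sg6 i * H738.hd (1 / 16) (H738.le3 R m) (H738.kp i) p‖ ≤ 1 / 16 := by
      rw [norm_mul, H738.norm_sig (H738.sg6_sq i), one_mul]; exact A.norm_hd_le _
    have h5 : ‖H738.sg6 j * H738.hd (1 / 16) (H738.le3 R m) (H738.kp j) p‖ ≤ 1 / 16 := by
      rw [norm_mul, H738.norm_sig (H738.sg6_sq j), one_mul]; exact A.norm_hd_le _
    linarith
  obtain ⟨i₀, hi₀, hk, hs⟩ : ∃ i₀ : Fin 6, i₀ ≠ i ∧ H738.kp i₀ = H738.kp i ∧
      H738.sg6 i₀ = -H738.sg6 i := by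
    fin_cases i
    · exact ⟨1, by decide, by decide, by simp [H738.sg6]⟩
    · exact ⟨0, by decide, by decide, by simp [H738.sg6]⟩
    · exact ⟨3, by decide, by decide, by simp [H738.sg6]⟩
    · exact ⟨2, by decide, by decide, by simp [H738.sg6]⟩
    · exact ⟨5, by decide, by decide, by simp [H738.sg6]⟩
    · exact ⟨4, by decide, by decide, by simp [H738.sg6]⟩
  refine hh_aux hi₀ hpos hle ?_ fun j hj hj0 => hb j ?_
  · have e : H738.rt6 R m p i₀ - H738.rt6 R m p i =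
        -(2 * (H738.sg6 i * H738.hd (1 / 16) (H738.le3 R m) (H738.kp i) p)) := by
      unfold H738.rt6 H738.rts; rw [hk, hs]; ring
    rw [e, norm_neg, norm_mul, norm_mul, H738.norm_sig (H738.sg6_sq i), one_mul]
    norm_num
  · have key : ∀ i i₀ j : Fin 6, i₀ ≠ i → H738.kp i₀ = H738.kp i → j ≠ i → j ≠ i₀ →
      H738.kp j ≠ H738.kp i := by decide
    exact key i i₀ j hi₀ hk hj hj0

/-- **(A4)** -/
theorem inA4 {O : One} (hA : InA0) (hO : Disc0 O) : InA4 O := by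
  obtain ⟨N₀, hN1, hB⟩ := hA
  refine ⟨N₀, hN1, fun R m S hS p hp t k => ?_⟩
  have h := hB R m S hS p hp
  have hN : 0 ≤ N₀ := by linarith
  by_cases hk : fin S t (posE R m p) k
  swap
  · left
    intro ξ _
    exact Eventually.of_forall fun q => Brd.gX_inf O ξ hk q
  have hXX : ∀ᶠ b in 𝓝 (posE R m p).1, b ∈ XX := H401.isOpen_XX.mem_nhds h.mem
  have hk6 : ((k : ℕ) : ℝ) ≤ 6 := by exact_mod_cast Nat.lt_succ_iff.1 k.2
  have hinj : (posE R m p).1 ∈ H214.Cf := Vale.P273.H887.injective_of_mem_XX h.mem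
  by_cases h1 : ∃ j : Fin 6, ‖(PX S t (posE R m) (shE R m S) p k).1 - (posE R m p).1 j‖ <
      (1 - (k : ℕ) / 64) * (Real.sqrt (H214.hh (posE R m p).1 j) / 8)
  · left
    obtain ⟨j, hj⟩ := h1
    have h2 := h.gX_root O j (ρ := fun b => Real.sqrt (H214.hh b j) / 8)
      (((H214.contDiffAt_hh hinj j).continuousAt.sqrt).div_const _) (by
        filter_upwards [hXX] with b hb ξ hξ x' hx' y' hy' w
        refine hO b hb ξ hξ x' y' hy' (Or.inl ⟨j, ?_⟩) w
        have h2 : 0 < Real.sqrt (H214.hh b j) / 8 := (norm_nonneg _).trans_lt hx'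
        have h3 : 0 < Real.sqrt (H214.hh b j) := by linarith
        have h4 := Real.sq_sqrt (Real.sqrt_pos.1 h3).le
        have h5 := pow_lt_pow_left₀ hx' (norm_nonneg _) two_ne_zero
        rw [div_pow, h4] at h5
        linarith) hk hj
    intro ξ hξ
    filter_upwards [h2] with q hq
    exact hq ξ hξ
  by_cases h2 : (1 + (k : ℕ) / 64) * (3 / 2 * H604.Rr (posE R m p).1) <
      ‖(PX S t (posE R m) (shE R m S) p k).1‖
  · left
    have h3 := h.gX_far O (R := fun b => 3 / 2 * H604.Rr b)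
      ((H604.contDiff_Rr.continuous.continuousAt).const_mul _) (by
        filter_upwards [hXX] with b hb
        have h3 := H604.Rr_pos b
        have h4 := H604.norm_le_Rr b 0
        refine ⟨by positivity, by linarith [norm_nonneg (b 0)], fun ξ hξ x' hx' y' hy' w =>
          hO b hb ξ hξ x' y' hy' (Or.inr ?_) w⟩
        have h5 := pow_lt_pow_left₀ hx' (by positivity) two_ne_zero
        nlinarith) hk h2
    intro ξ hξ
    filter_upwards [h3] with q hq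
    exact hq ξ hξ
  right
  push Not at h1 h2
  refine ⟨hk, fun i => ?_, ?_⟩
  · refine le_trans ?_ (h1 i)
    rw [← H738.norm_hd_eq (R := R) (m := m)]
    have h8 := norm_nonneg (H738.hd (1 / 16) (H738.le3 R m) (H738.kp i) p)
    have h5 : 3 / 2 * ‖H738.hd (1 / 16) (H738.le3 R m) (H738.kp i) p‖ ≤
        Real.sqrt (H214.hh (posE R m p).1 i) := Real.le_sqrt_of_sq_le (hh_ge hp hN i)
    have h6 : (58 / 64 : ℝ) ≤ 1 - ((k : ℕ) : ℝ) / 64 := by linarith
    have h7 := Real.sqrt_nonneg (H214.hh (posE R m p).1 i)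
    calc _ ≤ 58 / 64 * (3 / 2 * ‖H738.hd (1 / 16) (H738.le3 R m) (H738.kp i) p‖ / 8) := by
          linarith
      _ ≤ 58 / 64 * (Real.sqrt (H214.hh (posE R m p).1 i) / 8) := by gcongr
      _ ≤ _ := mul_le_mul_of_nonneg_right h6 (by positivity)
  · refine h2.trans ?_
    have h3 := H604.Rr_pos (posE R m p).1
    have h4 : (1 + ((k : ℕ) : ℝ) / 64) * (3 / 2 * H604.Rr (posE R m p).1) ≤
        (1 + 6 / 64) * (3 / 2 * 80) := by
      have := Rr_le hp hN
      gcongr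
    linarith

end Vale.Agent.P273.H655
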