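import Vale.Agent.P273.H857.Stm

/-!
Bounds for the integrand of the primitives along graphs (rows GP-HOLR, GP-HOL, GP-INV).
-/

open Complex Set Filter Topology MeasureTheory
open scoped ContDiff

namespace Vale.Agent.P273.H655

open Vale.Agent.P273.H857

noncomputable section

/-- the majorant at a root -/
theorem integrable_maj :
    IntegrableOn (fun t : ℝ => t ^ (-(1 / 2) : ℝ) * (1 + t) ^ (-(3 / 2) : ℝ)) (Ioi 0) := by
  have hm : Measurable (fun t : ℝ => t ^ (-(1 / 2) : ℝ) * (1 + t) ^ (-(3 / 2) : ℝ)) := by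
    fun_prop
  have e : Ioi (0 : ℝ) = Ioc 0 1 ∪ Ioi 1 := (Ioc_union_Ioi_eq_Ioi zero_le_one).symm
  rw [e]
  refine IntegrableOn.union ?_ ?_
  · have h1 : IntegrableOn (fun t : ℝ => t ^ (-(1 / 2) : ℝ)) (Ioc 0 1) := by
      have := intervalIntegral.intervalIntegrable_rpow' (a := 0) (b := 1)
        (r := (-(1 / 2) : ℝ)) (by norm_num)
      rwa [intervalIntegrable_iff_integrableOn_Ioc_of_le zero_le_one] at this
    refine h1.mono' hm.aestronglyMeasurable ?_
    filter_upwards [ae_restrict_mem measurableSet_Ioc] with t ht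
    have h2 : 0 ≤ t ^ (-(1 / 2) : ℝ) := Real.rpow_nonneg ht.1.le _
    have h3 : 0 ≤ (1 + t) ^ (-(3 / 2) : ℝ) := Real.rpow_nonneg (by linarith [ht.1]) _
    have h4 : (1 + t) ^ (-(3 / 2) : ℝ) ≤ 1 :=
      Real.rpow_le_one_of_one_le_of_nonpos (by linarith [ht.1]) (by norm_num)
    rw [Real.norm_of_nonneg (mul_nonneg h2 h3)]
    nlinarith
  · have h1 : IntegrableOn (fun t : ℝ => t ^ (-(3 / 2) : ℝ)) (Ioi 1) :=
      integrableOn_Ioi_rpow_of_lt (by norm_num) one_pos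
    refine h1.mono' hm.aestronglyMeasurable ?_
    filter_upwards [ae_restrict_mem measurableSet_Ioi] with t ht
    have ht1 : (1 : ℝ) < t := ht
    have h2 : 0 ≤ t ^ (-(1 / 2) : ℝ) := Real.rpow_nonneg (by linarith) _
    have h3 : 0 ≤ (1 + t) ^ (-(3 / 2) : ℝ) := Real.rpow_nonneg (by linarith) _
    have h4 : t ^ (-(1 / 2) : ℝ) ≤ 1 :=
      Real.rpow_le_one_of_one_le_of_nonpos ht1.le (by norm_num)
    have h5 : (1 + t) ^ (-(3 / 2) : ℝ) ≤ t ^ (-(3 / 2) : ℝ) :=
      Real.rpow_le_rpow_of_nonpos (by linarith) (by linarith) (by norm_num)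
    rw [Real.norm_of_nonneg (mul_nonneg h2 h3)]
    nlinarith

/-- the majorant at a point that is not a root -/
theorem integrable_maj2 : IntegrableOn (fun t : ℝ => ((1 + t) ^ 2)⁻¹) (Ioi 0) := by
  have hm : Measurable (fun t : ℝ => ((1 + t) ^ 2)⁻¹) := by fun_prop
  have e : Ioi (0 : ℝ) = Ioc 0 1 ∪ Ioi 1 := (Ioc_union_Ioi_eq_Ioi zero_le_one).symm
  rw [e]
  refine IntegrableOn.union ?_ ?_
  · have h1 : IntegrableOn (fun _ : ℝ => (1 : ℝ)) (Ioc 0 1) := by simp
    refine h1.mono' hm.aestronglyMeasurable ?_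
    filter_upwards [ae_restrict_mem measurableSet_Ioc] with t ht
    rw [Real.norm_of_nonneg (by positivity)]
    exact inv_le_one_of_one_le₀ (by nlinarith [ht.1])
  · have h1 : IntegrableOn (fun t : ℝ => t ^ (-2 : ℝ)) (Ioi 1) :=
      integrableOn_Ioi_rpow_of_lt (by norm_num) one_pos
    refine h1.mono' hm.aestronglyMeasurable ?_
    filter_upwards [ae_restrict_mem measurableSet_Ioi] with t ht
    have ht1 : (1 : ℝ) < t := ht
    rw [Real.norm_of_nonneg (by positivity), Real.rpow_neg (by linarith)]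
    norm_num
    exact inv_anti₀ (by positivity) (by nlinarith)

theorem height_le {g : ℝ → ℝ} {K : ℝ} (hs : Differentiable ℝ g) (h0 : g 0 = 0)
    (hK : ∀ t, |deriv g t| ≤ K) {t : ℝ} (ht : 0 ≤ t) : |g t| ≤ K * t := by
  have h := Convex.norm_image_sub_le_of_norm_deriv_le (f := g) (C := K) (s := univ) (x := 0)
    (y := t) (fun x _ => hs x) (fun x _ => by simpa using hK x) convex_univ (mem_univ _)
    (mem_univ _)
  simpa [h0, abs_of_nonneg ht] using h

theorem norm_sq (B : Finset (Fin 6)) (b : C6) (z : ℂ) :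
    ‖sq B b z‖ = ∏ l, Real.sqrt ‖z - b l‖ := by
  rw [H857.sq, norm_prod]
  exact Finset.prod_congr rfl fun l _ => norm_br B l _

theorem norm_sqj (j : Fin 6) (B : Finset (Fin 6)) (b : C6) (z : ℂ) :
    ‖sqj j B b z‖ = ∏ l ∈ Finset.univ.erase j, Real.sqrt ‖z - b l‖ := by
  rw [sqj, norm_prod]
  exact Finset.prod_congr rfl fun l _ => norm_br B l _

/-- the numerator -/
theorem num_bound {k : ℕ} (hk : k ≤ 1) {x : ℂ} {g : ℝ → ℝ} {K R : ℝ} (hs : Differentiable ℝ g)
    (h0 : g 0 = 0) (hK : ∀ t, |deriv g t| ≤ K) (hR : ‖x‖ ≤ R) {t : ℝ} (ht : 0 ≤ t) :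
    ‖gam x g t ^ k‖ * ‖(1 : ℂ) + deriv g t * I‖ ≤ (R + 1 + K) * (1 + K) * (1 + t) := by
  have hK0 : 0 ≤ K := (abs_nonneg _).trans (hK 0)
  have hR0 : 0 ≤ R := (norm_nonneg _).trans hR
  have h1 : ‖gam x g t‖ ≤ (R + 1 + K) * (1 + t) := by
    have h2 : ‖gam x g t‖ ≤ ‖x‖ + (‖(t : ℂ)‖ + ‖(g t : ℂ) * I‖) :=
      (norm_add_le _ _).trans (add_le_add_right (norm_add_le _ _) _)
    have h3 : ‖(t : ℂ)‖ = t := by rw [norm_real, Real.norm_of_nonneg ht]
    have h4 : ‖(g t : ℂ) * I‖ = |g t| := by rw [norm_mul, norm_I, mul_one, norm_real]; rfl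
    rw [h3, h4] at h2
    have h5 := height_le hs h0 hK ht
    nlinarith [mul_nonneg hK0 ht, mul_nonneg hR0 ht]
  have h2 : ‖gam x g t ^ k‖ ≤ (R + 1 + K) * (1 + t) := by
    interval_cases k
    · rw [pow_zero, norm_one]
      nlinarith [mul_nonneg hK0 ht, mul_nonneg hR0 ht]
    · rwa [pow_one]
  have h3 : ‖(1 : ℂ) + deriv g t * I‖ ≤ 1 + K := by
    refine (norm_add_le _ _).trans ?_
    rw [norm_one, norm_mul, norm_I, mul_one, norm_real, Real.norm_eq_abs]
    linarith [hK t]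
  calc ‖gam x g t ^ k‖ * ‖(1 : ℂ) + deriv g t * I‖
      ≤ ((R + 1 + K) * (1 + t)) * (1 + K) :=
        mul_le_mul h2 h3 (norm_nonneg _) (by positivity)
    _ = _ := by ring

theorem norm_igd (k : ℕ) (B : Finset (Fin 6)) (b : C6) (x : ℂ) (g : ℝ → ℝ) (t : ℝ) :
    ‖igd k B b x g t‖ = ‖gam x g t ^ k‖ * ‖(1 : ℂ) + deriv g t * I‖ / ‖sq B b (gam x g t)‖ := by
  rw [igd, norm_mul, norm_div]; ring

/-- **the bound at a root** -/
theorem igd_bound_root {k : ℕ} (hk : k ≤ 1) {B : Finset (Fin 6)} {b : C6} {j : Fin 6}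
    {g : ℝ → ℝ} {K c R : ℝ} (hs : Differentiable ℝ g)
    (h0 : g 0 = 0) (hK : ∀ t, |deriv g t| ≤ K) (hc : 0 < c) (hR : ‖b j‖ ≤ R)
    (hlow : ∀ t ≥ (0 : ℝ), ∀ l, l ≠ j → c * (1 + t) ≤ ‖gam (b j) g t - b l‖) {t : ℝ}
    (ht : 0 < t) :
    ‖igd k B b (b j) g t‖ ≤ (R + 1 + K) * (1 + K) * (Real.sqrt c ^ 5)⁻¹ *
      (t ^ (-(1 / 2) : ℝ) * (1 + t) ^ (-(3 / 2) : ℝ)) := by
  have hK0 : 0 ≤ K := (abs_nonneg _).trans (hK 0)
  have hR0 : 0 ≤ R := (norm_nonneg _).trans hR
  have h1 : Real.sqrt t ≤ Real.sqrt ‖gam (b j) g t - b j‖ := by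
    refine Real.sqrt_le_sqrt ?_
    have : t = (gam (b j) g t - b j).re := by rw [sub_re, gam_re]; ring
    calc t = (gam (b j) g t - b j).re := this
      _ ≤ |(gam (b j) g t - b j).re| := le_abs_self _
      _ ≤ _ := abs_re_le_norm _
  have h2 : ∀ l ∈ Finset.univ.erase j,
      Real.sqrt c * Real.sqrt (1 + t) ≤ Real.sqrt ‖gam (b j) g t - b l‖ := by
    intro l hl
    rw [← Real.sqrt_mul hc.le]
    exact Real.sqrt_le_sqrt (hlow t ht.le l (Finset.ne_of_mem_erase hl))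
  have h3 : (Real.sqrt c * Real.sqrt (1 + t)) ^ 5 ≤
      ∏ l ∈ Finset.univ.erase j, Real.sqrt ‖gam (b j) g t - b l‖ := by
    have := Finset.prod_le_prod (s := Finset.univ.erase j)
      (f := fun _ => Real.sqrt c * Real.sqrt (1 + t))
      (g := fun l => Real.sqrt ‖gam (b j) g t - b l‖) (fun _ _ => by positivity) h2
    simpa using this
  have h4 : Real.sqrt t * (Real.sqrt c * Real.sqrt (1 + t)) ^ 5 ≤ ‖sq B b (gam (b j) g t)‖ := by
    rw [norm_sq, ← Finset.mul_prod_erase _ _ (Finset.mem_univ j)]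
    exact mul_le_mul h1 h3 (by positivity) (Real.sqrt_nonneg _)
  have h5 : 0 < Real.sqrt t * (Real.sqrt c * Real.sqrt (1 + t)) ^ 5 := by positivity
  have h6 : (1 + t) / (Real.sqrt t * (Real.sqrt c * Real.sqrt (1 + t)) ^ 5) =
      (Real.sqrt c ^ 5)⁻¹ * (t ^ (-(1 / 2) : ℝ) * (1 + t) ^ (-(3 / 2) : ℝ)) := by
    have e1 : t ^ (-(1 / 2) : ℝ) = (Real.sqrt t)⁻¹ := by
      rw [Real.rpow_neg ht.le, Real.sqrt_eq_rpow]
    have e2 : (1 + t) ^ (-(3 / 2) : ℝ) = (Real.sqrt (1 + t) ^ 3)⁻¹ := by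
      rw [Real.rpow_neg (by positivity), Real.sqrt_eq_rpow, ← Real.rpow_natCast,
        ← Real.rpow_mul (by positivity)]
      norm_num
    rw [e1, e2, mul_pow]
    have e3 : Real.sqrt (1 + t) ^ 2 = 1 + t := Real.sq_sqrt (by positivity)
    have e4 : Real.sqrt (1 + t) ≠ 0 := by positivity
    have e5 : Real.sqrt t ≠ 0 := by positivity
    have e6 : Real.sqrt c ≠ 0 := by positivity
    have e7 : Real.sqrt (1 + t) ^ 5 = (1 + t) * Real.sqrt (1 + t) ^ 3 := by
      calc Real.sqrt (1 + t) ^ 5 = Real.sqrt (1 + t) ^ 2 * Real.sqrt (1 + t) ^ 3 := by ring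
        _ = _ := by rw [e3]
    rw [e7]
    have e8 : (1 + t) ≠ 0 := by positivity
    field_simp
  rw [norm_igd]
  calc ‖gam (b j) g t ^ k‖ * ‖(1 : ℂ) + deriv g t * I‖ / ‖sq B b (gam (b j) g t)‖
      ≤ ((R + 1 + K) * (1 + K) * (1 + t)) /
          (Real.sqrt t * (Real.sqrt c * Real.sqrt (1 + t)) ^ 5) := by
        exact div_le_div₀ (by positivity) (num_bound hk hs h0 hK hR ht.le) h5 h4
    _ = (R + 1 + K) * (1 + K) *
          ((1 + t) / (Real.sqrt t * (Real.sqrt c * Real.sqrt (1 + t)) ^ 5)) := by ring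
    _ = _ := by rw [h6]; ring

/-- **the bound at a point that is not a root** -/
theorem igd_bound {k : ℕ} (hk : k ≤ 1) {B : Finset (Fin 6)} {b : C6} {x : ℂ}
    {g : ℝ → ℝ} {K c R : ℝ} (hs : Differentiable ℝ g)
    (h0 : g 0 = 0) (hK : ∀ t, |deriv g t| ≤ K) (hc : 0 < c) (hR : ‖x‖ ≤ R)
    (hlow : ∀ t ≥ (0 : ℝ), ∀ l, c * (1 + t) ≤ ‖gam x g t - b l‖) {t : ℝ} (ht : 0 ≤ t) :
    ‖igd k B b x g t‖ ≤ (R + 1 + K) * (1 + K) * (c ^ 3)⁻¹ * ((1 + t) ^ 2)⁻¹ := by
  have hK0 : 0 ≤ K := (abs_nonneg _).trans (hK 0)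
  have hR0 : 0 ≤ R := (norm_nonneg _).trans hR
  have h3 : (Real.sqrt (c * (1 + t))) ^ 6 ≤ ∏ l, Real.sqrt ‖gam x g t - b l‖ := by
    have := Finset.prod_le_prod (s := Finset.univ)
      (f := fun _ => Real.sqrt (c * (1 + t)))
      (g := fun l => Real.sqrt ‖gam x g t - b l‖) (fun _ _ => by positivity)
      (fun l _ => Real.sqrt_le_sqrt (hlow t ht l))
    simpa using this
  have h4 : (c * (1 + t)) ^ 3 ≤ ‖sq B b (gam x g t)‖ := by
    rw [norm_sq]
    refine le_trans (le_of_eq ?_) h3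
    have : Real.sqrt (c * (1 + t)) ^ 2 = c * (1 + t) := Real.sq_sqrt (by positivity)
    calc (c * (1 + t)) ^ 3 = (Real.sqrt (c * (1 + t)) ^ 2) ^ 3 := by rw [this]
      _ = _ := by ring
  rw [norm_igd]
  calc ‖gam x g t ^ k‖ * ‖(1 : ℂ) + deriv g t * I‖ / ‖sq B b (gam x g t)‖
      ≤ ((R + 1 + K) * (1 + K) * (1 + t)) / (c * (1 + t)) ^ 3 :=
        div_le_div₀ (by positivity) (num_bound hk hs h0 hK hR ht) (by positivity) h4
    _ = _ := by
        have : (1 + t) ≠ 0 := by positivity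
        field_simp

/-- continuity of the integrand for positive times -/
theorem continuousOn_igd {k : ℕ} {B : Finset (Fin 6)} {b : C6} {x : ℂ} {g : ℝ → ℝ}
    (h : Adm B b x g) : ContinuousOn (igd k B b x g) (Ioi 0) := by
  have hg : Continuous g := h.1.smooth.continuous
  have hd : Continuous (deriv g) := h.1.smooth.continuous_deriv (by simp)
  have hgam : Continuous (gam x g) := by
    unfold gam; fun_prop
  intro t ht
  have h1 := h.mem_Dm (show (0 : ℝ) < t from ht)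
  have h2 : ContinuousAt (fun z => sq B b z) (gam x g t) :=
    (analyticAt_sq h1).continuousAt.comp (f := fun z : ℂ => ((b, z) : C6 × ℂ))
      (Continuous.prodMk_right b).continuousAt
  have h3 : sq B b (gam x g t) ≠ 0 := by
    refine sq_ne_zero fun l hl => ?_
    exact Sb_ne_zero (h1 l) (sub_eq_zero.2 hl)
  unfold igd
  refine ContinuousAt.continuousWithinAt ?_
  refine ContinuousAt.mul (ContinuousAt.div ?_ ?_ h3) ?_
  · exact (hgam.pow k).continuousAt
  · exact ContinuousAt.comp (f := gam x g) h2 hgam.continuousAt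
  · fun_prop

theorem aesm_igd {k : ℕ} {B : Finset (Fin 6)} {b : C6} {x : ℂ} {g : ℝ → ℝ}
    (h : Adm B b x g) : AEStronglyMeasurable (igd k B b x g) (volume.restrict (Ioi 0)) :=
  (continuousOn_igd h).aestronglyMeasurable measurableSet_Ioi

/-- differentiability in the configuration, start at the root `b j` -/
theorem differentiableAt_igd_root {k : ℕ} {B : Finset (Fin 6)} {b : C6} {j : Fin 6} {g : ℝ → ℝ}
    {t : ℝ} (h : gam (b j) g t ∈ Dm B b) :
    DifferentiableAt ℂ (fun b : C6 => igd k B b (b j) g t) b := by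
  have hj : DifferentiableAt ℂ (fun b : C6 => b j) b := differentiableAt_apply j b
  have hgam : DifferentiableAt ℂ (fun b : C6 => gam (b j) g t) b := by
    unfold gam; exact hj.add_const _
  have h1 : DifferentiableAt ℂ (fun b : C6 => sq B b (gam (b j) g t)) b :=
    DifferentiableAt.comp b (g := fun p : C6 × ℂ => sq B p.1 p.2)
      (f := fun b : C6 => (b, gam (b j) g t)) (analyticAt_sq h).differentiableAt
      (differentiableAt_id.prodMk hgam)
  have h3 : sq B b (gam (b j) g t) ≠ 0 := by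
    refine sq_ne_zero fun l hl => ?_
    exact Sb_ne_zero (h l) (sub_eq_zero.2 hl)
  unfold igd
  simp only [div_eq_mul_inv]
  exact ((hgam.fun_pow k).fun_mul (h1.fun_inv h3)).mul_const _

/-- differentiability in the configuration and in the starting point -/
theorem differentiableAt_igd {k : ℕ} {B : Finset (Fin 6)} {p : C6 × ℂ} {g : ℝ → ℝ}
    {t : ℝ} (h : gam p.2 g t ∈ Dm B p.1) :
    DifferentiableAt ℂ (fun p : C6 × ℂ => igd k B p.1 p.2 g t) p := by
  have hgam : DifferentiableAt ℂ (fun p : C6 × ℂ => gam p.2 g t) p := by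
    unfold gam; exact differentiableAt_snd.add_const _
  have h1 : DifferentiableAt ℂ (fun p : C6 × ℂ => sq B p.1 (gam p.2 g t)) p :=
    DifferentiableAt.comp p (g := fun p : C6 × ℂ => sq B p.1 p.2)
      (f := fun p : C6 × ℂ => (p.1, gam p.2 g t)) (analyticAt_sq h).differentiableAt
      (differentiableAt_fst.prodMk hgam)
  have h3 : sq B p.1 (gam p.2 g t) ≠ 0 := by
    refine sq_ne_zero fun l hl => ?_
    exact Sb_ne_zero (h l) (sub_eq_zero.2 hl)
  unfold igd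
  simp only [div_eq_mul_inv]
  exact ((hgam.fun_pow k).fun_mul (h1.fun_inv h3)).mul_const _

end

end Vale.Agent.P273.H655
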