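import Vale.Agent.P273.H778.T2Defs
import Vale.Agent.P273.H214.OneOf

/-!
# P273, crew ASY0, T2: the zero discs of `oneOf`
-/

open Set Filter Topology Metric
open scoped ContDiff
open Vale.Agent.P273.H681 Vale.Agent.P273.H95 Vale.Agent.P273.H578
  Vale.Agent.P273.H973 Vale.Agent.P273.H778

noncomputable section

namespace Vale.Agent.P273.H655

/-- **the one mark gauge of helper214 has the zero discs** -/
theorem disc0_oneOf (Φ : H214.FlatFam) : Disc0 (H214.oneOf Φ) := by
  intro b hb ξ hξ x y hy h w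
  have hf : y ^ 2 = H214.ff (b, x) := hy.1
  show H214.etaC (Φ.η ξ) (Φ.A ξ) false (b, x) y (0, w) = 0
  rw [H214.etaC_false]
  rcases h with ⟨j, hj⟩ | h
  · rw [H214.etaP_eq_zero (Φ.flat ξ hξ) (b := b) (x := x) hb hj (hy.off j) hf]
    rfl
  · exact H604.etaP_vert_far (Φ.flat ξ hξ) hb h hf w

end Vale.Agent.P273.H655
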